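import Vale.Agent.P092.H759.SpB

/-!
P092 (helper759): `Sp_{2n}(R)`, `R` a Dedekind domain.  Part 1: every nonzero vector of `K^{2n}` is the
first column of a symplectic matrix which maps a product of dual fractional ideals onto `R^{2n}`.
-/

set_option linter.all false

open Matrix
open scoped nonZeroDivisors

namespace Vale.Agent.P092.H759.OS

section ded

variable {R K : Type} [CommRing R] [IsDedekindDomain R] [Field K] [Algebra R K]
  [IsFractionRing R K]

open FractionalIdeal

theorem step2 (u v : K) (h : u ≠ 0 ∨ v ≠ 0) {a b : FractionalIdeal R⁰ K} (ha : a ≠ 0)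
    (hb : b ≠ 0) : ∃ (m : FractionalIdeal R⁰ K) (z y : K), m ≠ 0 ∧ u * z + v * y = 1 ∧
      z ∈ a⁻¹ * m ∧ y ∈ b⁻¹ * m ∧ u ∈ a * m⁻¹ ∧ v ∈ b * m⁻¹ := by
  obtain ⟨S, hS⟩ : ∃ S : FractionalIdeal R⁰ K, S = spanSingleton R⁰ u * a⁻¹ +
    spanSingleton R⁰ v * b⁻¹ := ⟨_, rfl⟩
  have huS : spanSingleton R⁰ u * a⁻¹ ≤ S := by rw [hS]; exact le_self_add
  have hvS : spanSingleton R⁰ v * b⁻¹ ≤ S := by rw [hS]; exact le_add_self
  have hS0 : S ≠ 0 := by
    intro h0
    rw [h0] at huS hvS
    rcases h with h | h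
    · have h1 := le_antisymm huS (zero_le _)
      rcases mul_eq_zero.1 h1 with h2 | h2
      · exact h (spanSingleton_eq_zero_iff.1 h2)
      · exact inv_ne_zero ha h2
    · have h1 := le_antisymm hvS (zero_le _)
      rcases mul_eq_zero.1 h1 with h2 | h2
      · exact h (spanSingleton_eq_zero_iff.1 h2)
      · exact inv_ne_zero hb h2
  obtain ⟨m, hm⟩ : ∃ m, m = S⁻¹ := ⟨_, rfl⟩
  have hm0 : m ≠ 0 := by rw [hm]; exact inv_ne_zero hS0
  have hSm : S * m = 1 := by rw [hm]; exact mul_inv_cancel₀ hS0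
  have hmi : m⁻¹ = S := by rw [hm, inv_inv]
  have h1 : (1 : K) ∈ S * m := by rw [hSm]; exact one_mem_one R⁰
  rw [hS, add_mul, mem_add, mul_assoc, mul_assoc] at h1
  obtain ⟨p, hp, q, hq, hpq⟩ := h1
  obtain ⟨z, hz, rfl⟩ := mem_singleton_mul.1 hp
  obtain ⟨y, hy, rfl⟩ := mem_singleton_mul.1 hq
  refine ⟨m, z, y, hm0, hpq, hz, hy, ?_, ?_⟩
  · rw [hmi]
    have h2 : a * (spanSingleton R⁰ u * a⁻¹) ≤ a * S := mul_le_mul_right huS a
    have h3 : a * (spanSingleton R⁰ u * a⁻¹) = spanSingleton R⁰ u := by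
      rw [mul_left_comm, mul_inv_cancel₀ ha, mul_one]
    rw [h3] at h2
    exact h2 (mem_spanSingleton_self R⁰ u)
  · rw [hmi]
    have h2 : b * (spanSingleton R⁰ v * b⁻¹) ≤ b * S := mul_le_mul_right hvS b
    have h3 : b * (spanSingleton R⁰ v * b⁻¹) = spanSingleton R⁰ v := by
      rw [mul_left_comm, mul_inv_cancel₀ hb, mul_one]
    rw [h3] at h2
    exact h2 (mem_spanSingleton_self R⁰ v)

theorem mm {a b c : FractionalIdeal R⁰ K} {x y : K} (h : a * b = c) (hx : x ∈ a) (hy : y ∈ b) :
    x * y ∈ c := h ▸ mul_mem_mul hx hy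

/-- the elements of a product of dual fractional ideals -/
def Lt {m : Type} (I : m → FractionalIdeal R⁰ K) (x : m ⊕ m → K) : Prop :=
  ∀ i, x (Sum.inl i) ∈ I i ∧ x (Sum.inr i) ∈ (I i)⁻¹

/-- `g` maps `Lt I'` onto `Lt I` -/
def Mp {m : Type} [Fintype m] [DecidableEq m] (g : symplecticGroup m K)
    (I' I : m → FractionalIdeal R⁰ K) : Prop := ∀ x, Lt I (g.1 *ᵥ x) ↔ Lt I' x

theorem Mp.comp {m : Type} [Fintype m] [DecidableEq m] {g h : symplecticGroup m K}
    {I'' I' I : m → FractionalIdeal R⁰ K} (hg : Mp g I' I) (hh : Mp h I'' I') :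
    Mp (g * h) I'' I := fun x => by rw [mul_mulVec, hg, hh]

/-- a linear map which preserves the form, as a group element -/
noncomputable def mkS {m : Type} [Fintype m] [DecidableEq m] (T : (m ⊕ m → K) →ₗ[K] (m ⊕ m → K))
    (h : ∀ u v, om (T u) (T v) = om u v) : symplecticGroup m K :=
  ⟨LinearMap.toMatrix' T, mem_of_om fun u v => by
    rw [LinearMap.toMatrix'_mulVec, LinearMap.toMatrix'_mulVec, h]⟩

theorem mkS_mulVec {m : Type} [Fintype m] [DecidableEq m] (T : (m ⊕ m → K) →ₗ[K] (m ⊕ m → K))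
    (h : ∀ u v, om (T u) (T v) = om u v) (x : m ⊕ m → K) : (mkS T h).1 *ᵥ x = T x :=
  LinearMap.toMatrix'_mulVec _ _

section two

variable {l : Type} [Fintype l] [DecidableEq l]

/-- `SL_2` at the first plane -/
theorem exists_sl2 (u v z y : K) (h : u * z + v * y = 1) :
    ∃ s : symplecticGroup (Option l) K, ∀ x, s.1 *ᵥ x =
      (u * x (Sum.inl none) - y * x (Sum.inr none)) • e0 +
      (v * x (Sum.inl none) + z * x (Sum.inr none)) • f0 + emb (prj x) := by
  refine ⟨mkS
    { toFun := fun x => (u * x (Sum.inl none) - y * x (Sum.inr none)) • e0 +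
        (v * x (Sum.inl none) + z * x (Sum.inr none)) • f0 + emb (prj x)
      map_add' := fun x x' => by
        refine vec_ext ?_ ?_ ?_
        · simp; ring
        · simp; ring
        · simp [prj_add, prj_smul]
      map_smul' := fun c x => by
        refine vec_ext ?_ ?_ ?_
        · simp; ring
        · simp; ring
        · simp [prj_add, prj_smul] } (fun x x' => ?_), fun x => mkS_mulVec _ _ _⟩
  change om ((u * x (Sum.inl none) - y * x (Sum.inr none)) • e0 +
      (v * x (Sum.inl none) + z * x (Sum.inr none)) • f0 + emb (prj x))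
      ((u * x' (Sum.inl none) - y * x' (Sum.inr none)) • e0 +
      (v * x' (Sum.inl none) + z * x' (Sum.inr none)) • f0 + emb (prj x')) = _
  rw [om_split, om_split x x']
  simp only [prj_add, prj_smul, prj_e0, prj_f0, prj_emb, smul_zero, zero_add, Pi.add_apply,
    Pi.smul_apply, e0_inl, e0_inr, f0_inl, f0_inr, emb_inl, emb_inr, smul_eq_mul, mul_one,
    mul_zero, add_zero]
  linear_combination (x (Sum.inr none) * x' (Sum.inl none) -
    x (Sum.inl none) * x' (Sum.inr none)) * h

/-- the Levi subgroup at the first plane and the plane `b` -/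
theorem exists_lv (b : l) (u v z y : K) (h : u * z + v * y = 1) :
    ∃ s : symplecticGroup (Option l) K, ∀ x, s.1 *ᵥ x =
      (u * x (Sum.inl none) - y * x (Sum.inl (some b))) • e0 +
      (z * x (Sum.inr none) - v * x (Sum.inr (some b))) • f0 +
      emb (Function.update (Function.update (prj x) (Sum.inl b)
        (v * x (Sum.inl none) + z * x (Sum.inl (some b)))) (Sum.inr b)
        (y * x (Sum.inr none) + u * x (Sum.inr (some b)))) := by
  obtain ⟨W, hW⟩ : ∃ W : (Option l ⊕ Option l → K) → (l ⊕ l → K), ∀ x, W x =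
      Function.update (Function.update (prj x) (Sum.inl b)
        (v * x (Sum.inl none) + z * x (Sum.inl (some b)))) (Sum.inr b)
        (y * x (Sum.inr none) + u * x (Sum.inr (some b))) := ⟨_, fun _ => rfl⟩
  have hWl : ∀ x, W x (Sum.inl b) = v * x (Sum.inl none) + z * x (Sum.inl (some b)) := by
    intro x
    rw [hW, Function.update_of_ne (by simp), Function.update_self]
  have hWr : ∀ x, W x (Sum.inr b) = y * x (Sum.inr none) + u * x (Sum.inr (some b)) := by
    intro x
    rw [hW, Function.update_self]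
  have hWl' : ∀ x i, i ≠ b → W x (Sum.inl i) = x (Sum.inl (some i)) := by
    intro x i hi
    rw [hW, Function.update_of_ne (by simp), Function.update_of_ne (by simpa using hi)]
    rfl
  have hWr' : ∀ x i, i ≠ b → W x (Sum.inr i) = x (Sum.inr (some i)) := by
    intro x i hi
    rw [hW, Function.update_of_ne (by simpa using hi), Function.update_of_ne (by simp)]
    rfl
  have hadd : ∀ x x', W (x + x') = W x + W x' := by
    intro x x'
    funext i
    rcases i with i | i
    · by_cases hi : i = b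
      · subst hi; rw [Pi.add_apply, hWl, hWl, hWl]; simp only [Pi.add_apply]; ring
      · rw [Pi.add_apply, hWl' _ i hi, hWl' _ i hi, hWl' _ i hi]; rfl
    · by_cases hi : i = b
      · subst hi; rw [Pi.add_apply, hWr, hWr, hWr]; simp only [Pi.add_apply]; ring
      · rw [Pi.add_apply, hWr' _ i hi, hWr' _ i hi, hWr' _ i hi]; rfl
  have hsmul : ∀ (c : K) x, W (c • x) = c • W x := by
    intro c x
    funext i
    rcases i with i | i
    · by_cases hi : i = b
      · subst hi; rw [Pi.smul_apply, hWl, hWl]; simp only [Pi.smul_apply, smul_eq_mul]; ring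
      · rw [Pi.smul_apply, hWl' _ i hi, hWl' _ i hi]; rfl
    · by_cases hi : i = b
      · subst hi; rw [Pi.smul_apply, hWr, hWr]; simp only [Pi.smul_apply, smul_eq_mul]; ring
      · rw [Pi.smul_apply, hWr' _ i hi, hWr' _ i hi]; rfl
  have hom : ∀ x x', om (W x) (W x') = om (prj x) (prj x') +
      (W x (Sum.inr b) * W x' (Sum.inl b) - W x (Sum.inl b) * W x' (Sum.inr b)) -
      (x (Sum.inr (some b)) * x' (Sum.inl (some b)) -
        x (Sum.inl (some b)) * x' (Sum.inr (some b))) := by
    intro x x'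
    rw [om_eq, om_eq, ← Finset.add_sum_erase _ _ (Finset.mem_univ b),
      ← Finset.add_sum_erase (a := b) Finset.univ (fun i => prj x (Sum.inr i) *
        prj x' (Sum.inl i) - prj x (Sum.inl i) * prj x' (Sum.inr i)) (Finset.mem_univ b)]
    have h1 : ∑ i ∈ Finset.univ.erase b, (W x (Sum.inr i) * W x' (Sum.inl i) -
        W x (Sum.inl i) * W x' (Sum.inr i)) = ∑ i ∈ Finset.univ.erase b, (prj x (Sum.inr i) *
        prj x' (Sum.inl i) - prj x (Sum.inl i) * prj x' (Sum.inr i)) := by
      refine Finset.sum_congr rfl fun i hi => ?_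
      have hib := Finset.ne_of_mem_erase hi
      rw [hWl' _ i hib, hWl' _ i hib, hWr' _ i hib, hWr' _ i hib]
      rfl
    rw [h1]
    have h2 : prj x (Sum.inr b) = x (Sum.inr (some b)) := rfl
    have h3 : prj x (Sum.inl b) = x (Sum.inl (some b)) := rfl
    have h4 : prj x' (Sum.inr b) = x' (Sum.inr (some b)) := rfl
    have h5 : prj x' (Sum.inl b) = x' (Sum.inl (some b)) := rfl
    rw [h2, h3, h4, h5]
    ring
  refine ⟨mkS
    { toFun := fun x => (u * x (Sum.inl none) - y * x (Sum.inl (some b))) • e0 +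
        (z * x (Sum.inr none) - v * x (Sum.inr (some b))) • f0 + emb (W x)
      map_add' := fun x x' => by
        refine vec_ext ?_ ?_ ?_
        · simp; ring
        · simp; ring
        · simp [prj_add, prj_smul, hadd]
      map_smul' := fun c x => by
        refine vec_ext ?_ ?_ ?_
        · simp; ring
        · simp; ring
        · simp [prj_add, prj_smul, hsmul] } (fun x x' => ?_), fun x => ?_⟩
  · change om ((u * x (Sum.inl none) - y * x (Sum.inl (some b))) • e0 +
        (z * x (Sum.inr none) - v * x (Sum.inr (some b))) • f0 + emb (W x))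
      ((u * x' (Sum.inl none) - y * x' (Sum.inl (some b))) • e0 +
        (z * x' (Sum.inr none) - v * x' (Sum.inr (some b))) • f0 + emb (W x')) = _
    rw [om_split, om_split x x']
    simp only [prj_add, prj_smul, prj_e0, prj_f0, prj_emb, smul_zero, zero_add, Pi.add_apply,
      Pi.smul_apply, e0_inl, e0_inr, f0_inl, f0_inr, emb_inl, emb_inr, smul_eq_mul, mul_one,
      mul_zero, add_zero]
    rw [hom, hWl, hWl, hWr, hWr]
    linear_combination (x (Sum.inr none) * x' (Sum.inl none) -
      x (Sum.inl none) * x' (Sum.inr none) + x (Sum.inr (some b)) * x' (Sum.inl (some b)) -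
      x (Sum.inl (some b)) * x' (Sum.inr (some b))) * h
  · rw [mkS_mulVec, ← hW]
    rfl

end two

end ded

end Vale.Agent.P092.H759.OS
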