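import Vale.Agent.P092.H759.OS.Adm
import Vale.Agent.P092.H677.OKf

/-!
P092 (helper759): `Sp_{2n}(R)`, `R` a Dedekind domain.  Part 2: finitely many orbits on the lines of
`K^{2n}`.
-/

set_option linter.all false

open Matrix
open scoped nonZeroDivisors

namespace Vale.Agent.P092.H759.OS

section ded

variable {R K : Type} [CommRing R] [IsDedekindDomain R] [Field K] [Algebra R K]
  [IsFractionRing R K] {l : Type} [Fintype l] [DecidableEq l]

open FractionalIdeal

/-- `a` at the new index -/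
def cn (a : FractionalIdeal R⁰ K) (I : l → FractionalIdeal R⁰ K) :
    Option l → FractionalIdeal R⁰ K := fun i => i.elim a I

theorem lt_cn {a : FractionalIdeal R⁰ K} {I : l → FractionalIdeal R⁰ K}
    {x : Option l ⊕ Option l → K} : Lt (cn a I) x ↔
      (x (Sum.inl none) ∈ a ∧ x (Sum.inr none) ∈ a⁻¹) ∧ Lt I (prj x) := by
  constructor
  · intro h
    exact ⟨h none, fun i => h (some i)⟩
  · rintro ⟨h1, h2⟩ i
    rcases i with _ | i
    · exact h1
    · exact h2 i

theorem cn_ne {a : FractionalIdeal R⁰ K} {I : l → FractionalIdeal R⁰ K} (ha : a ≠ 0)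
    (hI : ∀ i, I i ≠ 0) : ∀ i, cn a I i ≠ 0 := by
  rintro (_ | i)
  · exact ha
  · exact hI i

theorem cn_one : cn (1 : FractionalIdeal R⁰ K) (fun _ : l => 1) = fun _ => 1 := by
  funext i
  rcases i with _ | i <;> rfl

theorem mp_io {a : FractionalIdeal R⁰ K} {I I' : l → FractionalIdeal R⁰ K}
    {g : symplecticGroup l K} (h : Mp g I' I) : Mp (ioS g) (cn a I') (cn a I) := by
  intro x
  rw [lt_cn, lt_cn, ioS_mulVec, ← h]
  simp [prj_add, prj_smul]

theorem exists_col {u v : K} (h : u ≠ 0 ∨ v ≠ 0) : ∃ (s : symplecticGroup (Option l) K)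
    (m : FractionalIdeal R⁰ K), m ≠ 0 ∧ s.1 *ᵥ e0 = u • e0 + v • f0 ∧
      (∀ w : l ⊕ l → K, s.1 *ᵥ emb w = emb w) ∧
      ∀ I : l → FractionalIdeal R⁰ K, Mp s (cn m I) (cn 1 I) := by
  obtain ⟨m, z, y, hm, h1, hz, hy, hu, hv⟩ := step2 (R := R) u v h (one_ne_zero) (one_ne_zero)
  rw [inv_one, one_mul] at hz hy
  rw [one_mul] at hu hv
  obtain ⟨s, hs⟩ := exists_sl2 (l := l) u v z y h1
  have hmm : m * m⁻¹ = 1 := mul_inv_cancel₀ hm
  have hmm' : m⁻¹ * m = 1 := inv_mul_cancel₀ hm
  refine ⟨s, m, hm, ?_, ?_, fun I x => ?_⟩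
  · rw [hs]; simp
  · intro w; rw [hs]; simp
  · rw [lt_cn, lt_cn, hs]
    have e1 : prj ((u * x (Sum.inl none) - y * x (Sum.inr none)) • e0 +
      (v * x (Sum.inl none) + z * x (Sum.inr none)) • f0 + emb (prj x)) = prj x := by
      simp [prj_add, prj_smul]
    rw [e1]
    refine and_congr_left fun _ => ?_
    simp only [Pi.add_apply, Pi.smul_apply, e0_inl, e0_inr, f0_inl, f0_inr, emb_inl, emb_inr,
      smul_eq_mul, mul_one, mul_zero, add_zero, zero_add, inv_one]
    constructor
    · rintro ⟨h2, h3⟩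
      constructor
      · have e2 : x (Sum.inl none) = z * (u * x (Sum.inl none) - y * x (Sum.inr none)) +
            y * (v * x (Sum.inl none) + z * x (Sum.inr none)) := by
          linear_combination (-x (Sum.inl none)) * h1
        rw [e2]
        exact Submodule.add_mem _ (mm (mul_one m) hz h2) (mm (mul_one m) hy h3)
      · have e2 : x (Sum.inr none) = u * (v * x (Sum.inl none) + z * x (Sum.inr none)) -
            v * (u * x (Sum.inl none) - y * x (Sum.inr none)) := by
          linear_combination (-x (Sum.inr none)) * h1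
        rw [e2]
        exact Submodule.sub_mem _ (mm (mul_one _) hu h3) (mm (mul_one _) hv h2)
    · rintro ⟨h2, h3⟩
      exact ⟨Submodule.sub_mem _ (mm hmm' hu h2) (mm hmm hy h3),
        Submodule.add_mem _ (mm hmm' hv h2) (mm hmm hz h3)⟩

theorem exists_col2 {u v : K} (h : u ≠ 0 ∨ v ≠ 0) (b : l) {a : FractionalIdeal R⁰ K}
    (ha : a ≠ 0) {I : l → FractionalIdeal R⁰ K} (hI : ∀ i, I i ≠ 0) :
    ∃ (s : symplecticGroup (Option l) K) (I' : Option l → FractionalIdeal R⁰ K),
      (∀ i, I' i ≠ 0) ∧ s.1 *ᵥ e0 = u • e0 + v • emb (Pi.single (Sum.inl b) 1) ∧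
      Mp s I' (cn a I) := by
  obtain ⟨c, hc⟩ : ∃ c, c = I b := ⟨_, rfl⟩
  have hc0 : c ≠ 0 := by rw [hc]; exact hI b
  obtain ⟨m, z, y, hm, h1, hz, hy, hu, hv⟩ := step2 (R := R) u v h ha hc0
  obtain ⟨s, hs⟩ := exists_lv b u v z y h1
  obtain ⟨n, hn⟩ : ∃ n, n = m⁻¹ * (a * c) := ⟨_, rfl⟩
  have hn0 : n ≠ 0 := by
    rw [hn]
    exact mul_ne_zero (inv_ne_zero hm) (mul_ne_zero ha hc0)
  refine ⟨s, cn m (Function.update I b n), cn_ne hm fun i => ?_, ?_, fun x => ?_⟩
  · by_cases hi : i = b
    · subst hi; rw [Function.update_self]; exact hn0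
    · rw [Function.update_of_ne hi]; exact hI i
  · rw [hs]
    refine vec_ext ?_ ?_ ?_
    · simp [e0]
    · simp [e0]
    · rw [prj_add, prj_add, prj_smul, prj_smul, prj_add, prj_smul, prj_smul, prj_e0, prj_f0,
        prj_emb, prj_emb]
      funext i
      rcases i with i | i
      · by_cases hi : i = b
        · subst hi; simp [e0]
        · simp [e0, hi]
      · by_cases hi : i = b
        · subst hi; simp [e0]
        · simp [e0, hi]
  · rw [lt_cn, lt_cn, hs]
    obtain ⟨W, hW⟩ : ∃ W, W = Function.update (Function.update (prj x) (Sum.inl b)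
        (v * x (Sum.inl none) + z * x (Sum.inl (some b)))) (Sum.inr b)
        (y * x (Sum.inr none) + u * x (Sum.inr (some b))) := ⟨_, rfl⟩
    have hWl : W (Sum.inl b) = v * x (Sum.inl none) + z * x (Sum.inl (some b)) := by
      rw [hW, Function.update_of_ne (by simp), Function.update_self]
    have hWr : W (Sum.inr b) = y * x (Sum.inr none) + u * x (Sum.inr (some b)) := by
      rw [hW, Function.update_self]
    have hWl' : ∀ i, i ≠ b → W (Sum.inl i) = prj x (Sum.inl i) := by
      intro i hi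
      rw [hW, Function.update_of_ne (by simp), Function.update_of_ne (by simpa using hi)]
    have hWr' : ∀ i, i ≠ b → W (Sum.inr i) = prj x (Sum.inr i) := by
      intro i hi
      rw [hW, Function.update_of_ne (by simpa using hi), Function.update_of_ne (by simp)]
    rw [← hW]
    have e1 : prj ((u * x (Sum.inl none) - y * x (Sum.inl (some b))) • e0 +
      (z * x (Sum.inr none) - v * x (Sum.inr (some b))) • f0 + emb W) = W := by
      simp [prj_add, prj_smul]
    rw [e1]
    simp only [Pi.add_apply, Pi.smul_apply, e0_inl, e0_inr, f0_inl, f0_inr, emb_inl, emb_inr,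
      smul_eq_mul, mul_one, mul_zero, add_zero, zero_add]
    have k1 : a⁻¹ * m * a = m := by field_simp
    have k2 : c⁻¹ * m * c = m := by field_simp
    have k3 : a * m⁻¹ * a⁻¹ = m⁻¹ := by field_simp
    have k4 : c * m⁻¹ * c⁻¹ = m⁻¹ := by field_simp
    have k5 : c * m⁻¹ * a = n := by rw [hn]; field_simp
    have k6 : a * m⁻¹ * c = n := by rw [hn]; field_simp
    have k7 : c⁻¹ * m * a⁻¹ = n⁻¹ := by rw [hn]; field_simp
    have k8 : a⁻¹ * m * c⁻¹ = n⁻¹ := by rw [hn]; field_simp
    have k9 : a * m⁻¹ * m = a := by field_simp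
    have k10 : c⁻¹ * m * n = a := by rw [hn]; field_simp
    have k11 : a⁻¹ * m * m⁻¹ = a⁻¹ := by field_simp
    have k12 : c * m⁻¹ * n⁻¹ = a⁻¹ := by rw [hn]; field_simp
    have k13 : c * m⁻¹ * m = c := by field_simp
    have k14 : a⁻¹ * m * n = c := by rw [hn]; field_simp
    have k15 : c⁻¹ * m * m⁻¹ = c⁻¹ := by field_simp
    have k16 : a * m⁻¹ * n⁻¹ = c⁻¹ := by rw [hn]; field_simp
    constructor
    · rintro ⟨⟨h2, h3⟩, h4⟩
      obtain ⟨h5, h6⟩ := h4 b
      rw [hWl, ← hc] at h5
      rw [hWr, ← hc] at h6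
      refine ⟨⟨?_, ?_⟩, fun i => ?_⟩
      · have e2 : x (Sum.inl none) = z * (u * x (Sum.inl none) - y * x (Sum.inl (some b))) +
            y * (v * x (Sum.inl none) + z * x (Sum.inl (some b))) := by
          linear_combination (-x (Sum.inl none)) * h1
        rw [e2]
        exact Submodule.add_mem _ (mm k1 hz h2) (mm k2 hy h5)
      · have e2 : x (Sum.inr none) = u * (z * x (Sum.inr none) - v * x (Sum.inr (some b))) +
            v * (y * x (Sum.inr none) + u * x (Sum.inr (some b))) := by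
          linear_combination (-x (Sum.inr none)) * h1
        rw [e2]
        exact Submodule.add_mem _ (mm k3 hu h3) (mm k4 hv h6)
      · by_cases hi : i = b
        · subst hi
          rw [Function.update_self]
          constructor
          · change x (Sum.inl (some i)) ∈ n
            have e2 : x (Sum.inl (some i)) = u * (v * x (Sum.inl none) +
                z * x (Sum.inl (some i))) - v * (u * x (Sum.inl none) -
                y * x (Sum.inl (some i))) := by
              linear_combination (-x (Sum.inl (some i))) * h1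
            rw [e2]
            exact Submodule.sub_mem _ (mm k6 hu h5) (mm k5 hv h2)
          · change x (Sum.inr (some i)) ∈ n⁻¹
            have e2 : x (Sum.inr (some i)) = z * (y * x (Sum.inr none) +
                u * x (Sum.inr (some i))) - y * (z * x (Sum.inr none) -
                v * x (Sum.inr (some i))) := by
              linear_combination (-x (Sum.inr (some i))) * h1
            rw [e2]
            exact Submodule.sub_mem _ (mm k8 hz h6) (mm k7 hy h3)
        · rw [Function.update_of_ne hi, ← hWl' i hi, ← hWr' i hi]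
          exact h4 i
    · rintro ⟨⟨h2, h3⟩, h4⟩
      obtain ⟨h5, h6⟩ := h4 b
      rw [Function.update_self] at h5 h6
      have h5' : x (Sum.inl (some b)) ∈ n := h5
      have h6' : x (Sum.inr (some b)) ∈ n⁻¹ := h6
      refine ⟨⟨Submodule.sub_mem _ (mm k9 hu h2) (mm k10 hy h5'),
        Submodule.sub_mem _ (mm k11 hz h3) (mm k12 hv h6')⟩, fun i => ?_⟩
      by_cases hi : i = b
      · subst hi
        rw [hWl, hWr, ← hc]
        exact ⟨Submodule.add_mem _ (mm k13 hv h2) (mm k14 hz h5'),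
          Submodule.add_mem _ (mm k15 hy h3) (mm k16 hu h6')⟩
      · rw [hWl' i hi, hWr' i hi]
        have h7 := h4 i
        rwa [Function.update_of_ne hi] at h7

/-- `g` maps a product of dual fractional ideals onto the standard lattice -/
def AdmS (R : Type) {K : Type} [CommRing R] [IsDedekindDomain R] [Field K] [Algebra R K]
    [IsFractionRing R K] {l : Type} [Fintype l] [DecidableEq l] (g : symplecticGroup l K) : Prop :=
  ∃ I : l → FractionalIdeal R⁰ K, (∀ i, I i ≠ 0) ∧ Mp g I fun _ => 1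

/-- every nonzero vector is a column of an admissible matrix -/
def PS (R K : Type) [CommRing R] [IsDedekindDomain R] [Field K] [Algebra R K]
    [IsFractionRing R K] (l : Type) [Fintype l] [DecidableEq l] : Prop :=
  ∀ u : l ⊕ l → K, u ≠ 0 → ∃ (b : l) (g : symplecticGroup l K),
    g.1 *ᵥ Pi.single (Sum.inl b) 1 = u ∧ AdmS R g

theorem ps_step (h : PS R K l) (u : Option l ⊕ Option l → K) (hu : u ≠ 0) :
    ∃ g : symplecticGroup (Option l) K, g.1 *ᵥ e0 = u ∧ AdmS R g := by
  by_cases hw : prj u = 0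
  · have huv : u (Sum.inl none) ≠ 0 ∨ u (Sum.inr none) ≠ 0 := by
      by_contra hcon
      push Not at hcon
      refine hu (vec_ext hcon.1 hcon.2 ?_)
      rw [hw]; rfl
    obtain ⟨s, m, hm, hs, -, hMp⟩ := exists_col (R := R) (l := l) huv
    refine ⟨s, ?_, cn m fun _ => 1, cn_ne hm fun _ => one_ne_zero, ?_⟩
    · rw [hs]
      conv_rhs => rw [decomp u, hw, emb_zero, add_zero]
    · have := hMp fun _ => 1
      rwa [cn_one] at this
  · obtain ⟨b, g, hg, I, hI, hMg⟩ := h _ hw
    obtain ⟨s, m, ε, hm, hε, hs, hse, hMp⟩ : ∃ (s : symplecticGroup (Option l) K)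
        (m : FractionalIdeal R⁰ K) (ε : K), m ≠ 0 ∧ (ε ≠ 0 ∨ (1 : K) ≠ 0) ∧
        s.1 *ᵥ (ε • e0) = u (Sum.inl none) • e0 + u (Sum.inr none) • f0 ∧
        (∀ w : l ⊕ l → K, s.1 *ᵥ emb w = emb w) ∧
        ∀ I : l → FractionalIdeal R⁰ K, Mp s (cn m I) (cn 1 I) := by
      by_cases huv : u (Sum.inl none) ≠ 0 ∨ u (Sum.inr none) ≠ 0
      · obtain ⟨s, m, hm, hs, hse, hMp⟩ := exists_col (R := R) (l := l) huv
        exact ⟨s, m, 1, hm, Or.inr one_ne_zero, by rw [one_smul, hs], hse, hMp⟩
      · push Not at huv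
        refine ⟨1, 1, 0, one_ne_zero, Or.inr one_ne_zero, ?_, fun w => one_mulVec' _,
          fun I x => by rw [one_mulVec']⟩
        rw [huv.1, huv.2]
        simp
    obtain ⟨t, I', hI', ht, hMt⟩ := exists_col2 (R := R) hε b hm hI
    refine ⟨s * (ioS g * t), ?_, I', hI', ?_⟩
    · rw [mul_mulVec, mul_mulVec, ht, one_smul, Matrix.mulVec_add, ioS_mulVec, ioS_mulVec]
      have e1 : (ε • (e0 : Option l ⊕ Option l → K)) (Sum.inl none) • e0 +
          (ε • (e0 : Option l ⊕ Option l → K)) (Sum.inr none) • f0 +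
          emb (g.1 *ᵥ prj (ε • e0)) = ε • e0 := by
        simp [prj_smul]
      rw [e1]
      have e2 : (emb (Pi.single (Sum.inl b) 1) : Option l ⊕ Option l → K) (Sum.inl none) • e0 +
          (emb (Pi.single (Sum.inl b) 1) : Option l ⊕ Option l → K) (Sum.inr none) • f0 +
          emb (g.1 *ᵥ prj (emb (Pi.single (Sum.inl b) 1))) = emb (prj u) := by
        simp [hg]
      rw [e2, Matrix.mulVec_add, hs, hse]
      exact (decomp u).symm
    · have h1 : Mp s (cn m fun _ => 1) fun _ => 1 := by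
        have := hMp fun _ => 1
        rwa [cn_one] at this
      exact h1.comp ((mp_io hMg).comp hMt)

theorem ps_option (h : PS R K l) : PS R K (Option l) := fun u hu => by
  obtain ⟨g, hg, hA⟩ := ps_step h u hu
  exact ⟨none, g, hg, hA⟩

/-- the ideal classes -/
theorem out_eq {I : FractionalIdeal R⁰ K} (hI : I ≠ 0) : ∃ (c : H677.OK.QQ R K) (s : K), s ≠ 0 ∧
    (c.out : FractionalIdeal R⁰ K) = spanSingleton R⁰ s * I := by
  obtain ⟨h, hh⟩ := QuotientGroup.mk_out_eq_mul (toPrincipalIdeal R K).range (Units.mk0 I hI)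
  obtain ⟨s, hs⟩ := h.2
  refine ⟨QuotientGroup.mk (Units.mk0 I hI), (s : K), s.ne_zero, ?_⟩
  rw [hh, Units.val_mul, Units.val_mk0, ← hs, coe_toPrincipalIdeal, mul_comm]

/-- diagonal matrices -/
theorem exists_diag {m : Type} [Fintype m] [DecidableEq m] (t : m → K) (ht : ∀ i, t i ≠ 0) :
    ∃ s : symplecticGroup m K, ∀ x, s.1 *ᵥ x =
      Sum.elim (fun i => t i * x (Sum.inl i)) fun i => (t i)⁻¹ * x (Sum.inr i) := by
  refine ⟨mkS
    { toFun := fun x => Sum.elim (fun i => t i * x (Sum.inl i)) fun i => (t i)⁻¹ * x (Sum.inr i)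
      map_add' := fun x x' => by
        funext i
        rcases i with i | i
        · exact mul_add _ _ _
        · exact mul_add _ _ _
      map_smul' := fun c x => by
        funext i
        rcases i with i | i
        · change t i * (c * x (Sum.inl i)) = c * (t i * x (Sum.inl i))
          ring
        · change (t i)⁻¹ * (c * x (Sum.inr i)) = c * ((t i)⁻¹ * x (Sum.inr i))
          ring } (fun x x' => ?_), fun x => mkS_mulVec _ _ _⟩
  change om (Sum.elim (fun i => t i * x (Sum.inl i)) fun i => (t i)⁻¹ * x (Sum.inr i))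
    (Sum.elim (fun i => t i * x' (Sum.inl i)) fun i => (t i)⁻¹ * x' (Sum.inr i)) = _
  rw [om_eq, om_eq]
  refine Finset.sum_congr rfl fun i _ => ?_
  have h1 := mul_inv_cancel₀ (ht i)
  simp only [Sum.elim_inl, Sum.elim_inr]
  linear_combination (x (Sum.inr i) * x' (Sum.inl i) - x (Sum.inl i) * x' (Sum.inr i)) * h1

theorem lt_one {m : Type} {x : m ⊕ m → K} :
    Lt (fun _ => (1 : FractionalIdeal R⁰ K)) x ↔ ∀ i, x i ∈ (1 : FractionalIdeal R⁰ K) := by
  unfold Lt
  simp only [inv_one]
  exact ⟨fun h i => by rcases i with i | i; exacts [(h i).1, (h i).2],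
    fun h i => ⟨h _, h _⟩⟩

/-- a symplectic matrix with entries in `K` which is integral -/
theorem exists_intS {m : Type} [Fintype m] [DecidableEq m] (A : symplecticGroup m K)
    (h : ∀ x : m ⊕ m → K, Lt (fun _ => (1 : FractionalIdeal R⁰ K)) x →
      Lt (fun _ => (1 : FractionalIdeal R⁰ K)) (A.1 *ᵥ x)) :
    ∃ γ : symplecticGroup m R, mp (algebraMap R K) γ = A := by
  obtain ⟨B, hB⟩ := H677.OK.exists_int (R := R) (A := A.1) fun X hX => lt_one.1 (h X (lt_one.2 hX))
  have hinj : Function.Injective (algebraMap R K) := IsFractionRing.injective R K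
  have hBm : B ∈ symplecticGroup m R := by
    refine mem_of_om fun u v => hinj ?_
    rw [← map_om, ← map_om]
    have e : ∀ u : m ⊕ m → R, (fun i => algebraMap R K ((B *ᵥ u) i)) =
        A.1 *ᵥ fun i => algebraMap R K (u i) := by
      intro u
      funext i
      rw [← hB]
      exact RingHom.map_mulVec _ _ _ _
    rw [e, e]
    exact om_mulVec A.2 _ _
  exact ⟨⟨B, hBm⟩, Subtype.ext hB⟩

/-- **Finitely many orbits.** -/
theorem exists_orbitsS (h : PS R K l) [Finite (H677.OK.QQ R K)] :
    ∃ (ι : Type) (_ : Finite ι) (h : ι → symplecticGroup (Option l) K),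
      ∀ u : Option l ⊕ Option l → K, u ≠ 0 → ∃ i, ∃ t : K, t ≠ 0 ∧
        ∃ γ : symplecticGroup (Option l) R,
          u = t • ((mp (algebraMap R K) γ * h i).1 *ᵥ e0) := by
  classical
  have key : ∀ c : Option l → H677.OK.QQ R K, ∃ g : symplecticGroup (Option l) K,
      ∀ M : symplecticGroup (Option l) K,
        Mp M (fun i => ((c i).out : FractionalIdeal R⁰ K)) (fun _ => 1) →
        ∃ γ : symplecticGroup (Option l) R, M = mp (algebraMap R K) γ * g := by
    intro c
    by_cases hc : ∃ M₀ : symplecticGroup (Option l) K,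
        Mp M₀ (fun i => ((c i).out : FractionalIdeal R⁰ K)) (fun _ => 1)
    · obtain ⟨M₀, hM₀⟩ := hc
      refine ⟨M₀, fun M hM => ?_⟩
      obtain ⟨γ, hγ⟩ := exists_intS (R := R) (M * M₀⁻¹) fun x hx => by
        rw [mul_mulVec, hM, ← hM₀, mulVec_inv]
        exact hx
      exact ⟨γ, by rw [hγ, inv_mul_cancel_right]⟩
    · exact ⟨1, fun M hM => (hc ⟨M, hM⟩).elim⟩
  choose g hg using key
  refine ⟨Option l → H677.OK.QQ R K, inferInstance, g, fun u hu => ?_⟩
  obtain ⟨M, hM, I, hI, hMI⟩ := ps_step h u hu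
  choose c s hs hcs using fun i => out_eq (hI i)
  obtain ⟨d, hd⟩ := exists_diag (fun i => (s i)⁻¹) fun i => inv_ne_zero (hs i)
  have h1 : Mp d (fun i => ((c i).out : FractionalIdeal R⁰ K)) I := by
    intro x
    rw [hd]
    refine forall_congr' fun i => ?_
    change (s i)⁻¹ * x (Sum.inl i) ∈ I i ∧ ((s i)⁻¹)⁻¹ * x (Sum.inr i) ∈ (I i)⁻¹ ↔
      x (Sum.inl i) ∈ ((c i).out : FractionalIdeal R⁰ K) ∧
        x (Sum.inr i) ∈ ((c i).out : FractionalIdeal R⁰ K)⁻¹
    rw [hcs i, mul_inv, spanSingleton_inv, H677.OK.mem_ss_mul (hs i),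
      H677.OK.mem_ss_mul (inv_ne_zero (hs i))]
  obtain ⟨γ, hγ⟩ := hg c (M * d) (hMI.comp h1)
  refine ⟨c, s none, hs none, γ, ?_⟩
  rw [← hγ, mul_mulVec, hd]
  have h2 : (Sum.elim (fun i => (s i)⁻¹ * (e0 : Option l ⊕ Option l → K) (Sum.inl i)) fun i =>
      ((s i)⁻¹)⁻¹ * (e0 : Option l ⊕ Option l → K) (Sum.inr i)) = (s none)⁻¹ • e0 := by
    funext i
    rcases i with (_ | i) | (_ | i) <;> simp [e0]
  rw [h2, Matrix.mulVec_smul, smul_smul, mul_inv_cancel₀ (hs none), one_smul, hM]

theorem ps_empty {l : Type} [Fintype l] [DecidableEq l] [IsEmpty l] : PS R K l := by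
  intro u hu
  exact (hu (funext fun i => (isEmptyElim i : _))).elim

end ded

end Vale.Agent.P092.H759.OS
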